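import Vale.Agent.P011.D4X.H64.Pure
import Vale.Agent.P011.D4X.H64.Loc
import Vale.Agent.P011.D4X.H64.Interp
import Vale.Agent.P011.D4X.Defs2
import Vale.Agent.P011.E6I.Gal
import Vale.Agent.P011.E6I.H64.Real
import Vale.Agent.P011.MPQ.I2b

/-!
Every class is a product of norms from good quadratic extensions.
-/

open NumberField IsDedekindDomain Topology Filter

namespace Vale.Agent.P011.D4X

open Vale.Agent.P011.Arith Vale.Agent.P011.D4 Vale.Agent.P011.MPQ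

section good

theorem pure_of {F : Type} [Field F] {a b : Fˣ} {e p q r : F}
    (h : e = a * p ^ 2 + b * q ^ 2 - a * b * r ^ 2) :
    ∃ w : Qt a b, w.re = 0 ∧ w * w = e • 1 := by
  refine ⟨⟨0, p, q, r⟩, rfl, ?_⟩
  rw [h]
  ext <;> simp <;> ring

theorem ram_not_LS {F : Type} [Field F] [NumberField F] {a b : Fˣ}
    {v : HeightOneSpectrum (𝓞 F)} (h : Ram a b v) : a ∉ LS (v.valuation F) := by
  intro ha
  obtain ⟨π, hπ⟩ := exists_exp v
  apply h
  rw [NF_sup_of_mem ⟨π, hπ⟩ a ha]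
  exact Subgroup.mem_top _

variable {k L : Type} [Field k] [NumberField k] [Field L] [NumberField L] [Algebra k L]

theorem goodD_of {a b : kˣ} {q : Lˣ} {D : kˣ}
    (hk : ∀ v, Ram a b v → D ∉ LS (v.valuation k))
    (hL : ∀ w, Ram (up L a) q w → up L D ∉ LS (w.valuation L))
    (hL' : ∀ w, Ram (up L a) (q * up L b) w → up L D ∉ LS (w.valuation L))
    (hr : ∀ τ : k →+* ℝ, τ a < 0 → τ D < 0) (hr' : ∀ τ : k →+* ℝ, τ D < 0 → τ a < 0) :
    GoodD a b q (D : k) := by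
  refine ⟨D.ne_zero, ?_, ?_, ?_, hr'⟩
  · obtain ⟨x, y, z, h⟩ := exists_pure_ne a b D hk (fun φ h _ => hr φ h)
    exact pure_of h
  · obtain ⟨x, y, z, h⟩ := exists_pure_ne (up L a) q (up L D) hL
      (fun φ h _ => hr (φ.comp (algebraMap k L)) h)
    exact pure_of h
  · obtain ⟨x, y, z, h⟩ := exists_pure_ne (up L a) (q * up L b) (up L D) hL'
      (fun φ h _ => hr (φ.comp (algebraMap k L)) h)
    exact pure_of h

end good

section appr

variable {L : Type} [Field L] [NumberField L]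

/-- The form `ν (x ^ 2 - a y ^ 2) (z ^ 2 - D t ^ 2)`. -/
def f4 (ν a D : L) (X : Fin 4 → L) : L :=
  ν * (X 0 ^ 2 - a * X 1 ^ 2) * (X 2 ^ 2 - D * X 3 ^ 2)

omit [NumberField L] in
theorem f4_near (A : AbsoluteValue L ℝ) (ν a D : L) (X0 : Fin 4 → L) {ε : ℝ} (hε : 0 < ε) :
    ∃ δ : ℝ, 0 < δ ∧ ∀ X : Fin 4 → L, (∀ i, A (X i - X0 i) < δ) →
      A (f4 ν a D X - f4 ν a D X0) < ε := by
  refine exists_delta A (fun X : Fin 4 → L => f4 ν a D X) ?_ X0 hε
  let _ := topA A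
  have := topA_ring A
  simp only [f4]
  fun_prop

/-- The local solution. -/
theorem loc_pt (p : Pl L) {ν a D c : Lˣ} (h : c / ν ∈ NF a ⊔ NF D ⊔ LSp p) {ε : ℝ} (hε : 0 < ε) :
    ∃ X : Fin 4 → L, plAbv p (f4 (ν : L) a D X - c) < ε := by
  obtain ⟨n, hn, l, hl, hnl⟩ := Subgroup.mem_sup.mp h
  obtain ⟨n1, hn1, n2, hn2, rfl⟩ := Subgroup.mem_sup.mp hn
  have hc : c = ν * (n1 * n2 * l) := by
    rw [hnl, mul_div_cancel]
  obtain ⟨x, y, h1⟩ := hn1
  obtain ⟨z, t, h2⟩ := hn2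
  have hM : 0 < 1 + plAbv p (ν * n1 * n2 : L) := by
    have := (plAbv p).nonneg (ν * n1 * n2 : L)
    linarith
  obtain ⟨s, hs⟩ := exists_sq_near p hl (div_pos hε hM)
  refine ⟨![s * x, s * y, z, t], ?_⟩
  have e : f4 (ν : L) a D ![s * x, s * y, z, t] - c = (ν * n1 * n2 : L) * (s ^ 2 - l) := by
    have e1 : f4 (ν : L) a D ![s * x, s * y, z, t] =
        ν * ((s * x) ^ 2 - a * (s * y) ^ 2) * (z ^ 2 - D * t ^ 2) := rfl
    rw [e1, hc]
    push_cast
    rw [h1, h2]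
    ring
  rw [e, map_mul]
  rw [lt_div_iff₀ hM] at hs
  have h3 := (plAbv p).nonneg (s ^ 2 - l : L)
  nlinarith

/-- The global solution. -/
theorem glob_pt {T : Set (Pl L)} (hT : T.Finite) {ν a D c : Lˣ}
    (h : ∀ p ∈ T, c / ν ∈ NF a ⊔ NF D ⊔ LSp p) {ε : ℝ} (hε : 0 < ε) :
    ∃ X : Fin 4 → L, ∀ p ∈ T, plAbv p (f4 (ν : L) a D X - c) < ε := by
  classical
  have key : ∀ p : Pl L, ∃ X0 : Fin 4 → L, ∃ δ : ℝ, 0 < δ ∧ (p ∈ T → ∀ X : Fin 4 → L,
      (∀ i, plAbv p (X i - X0 i) < δ) → plAbv p (f4 (ν : L) a D X - c) < ε) := by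
    intro p
    by_cases hp : p ∈ T
    · obtain ⟨X0, hX0⟩ := loc_pt p (h p hp) (half_pos hε)
      obtain ⟨δ, hδ, h1⟩ := f4_near (plAbv p) (ν : L) a D X0 (half_pos hε)
      refine ⟨X0, δ, hδ, fun _ X hX => ?_⟩
      have h2 := h1 X hX
      have h3 := (plAbv p).add_le (f4 (ν : L) a D X - f4 (ν : L) a D X0)
        (f4 (ν : L) a D X0 - c)
      rw [sub_add_sub_cancel] at h3
      linarith
    · exact ⟨0, 1, one_pos, fun h => absurd h hp⟩
  choose X0 δ hδ hX0 using key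
  have h4 : ∀ i : Fin 4, ∃ f : L, ∀ p ∈ T, plAbv p (f - X0 p i) < δ p := fun i =>
    approx T hT (fun p => X0 p i) δ hδ
  choose X hX using h4
  exact ⟨X, fun p hp => hX0 p hp X fun i => hX i p hp⟩

end appr

section main

variable {k L : Type} [Field k] [NumberField k] [Field L] [NumberField L] [Algebra k L]

/-- Local decomposition. -/
theorem loc_dec {ρ : L ≃ₐ[k] L} (h3 : ∀ x, ρ (ρ (ρ x)) = x)
    (hfix : ∀ x, ρ x = x → ∃ t : k, algebraMap k L t = x) {S : Set (HeightOneSpectrum (𝓞 k))}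
    {a D : kˣ} (ha : ∀ v ∈ S, a ∉ LS (v.valuation k)) (hD : ∀ v ∈ S, D ∉ LS (v.valuation k))
    (haD : ∀ v ∈ S, a * D ∉ LS (v.valuation k)) {p : Pl L} (hp : p ∈ SP (ov L S)) (μ : Lˣ)
    (hμ : ∀ ψ : L →+* ℝ, ψ (algebraMap k L a) < 0 → 0 < ψ μ) :
    μ ∈ NF (up L a) ⊔ NF (up L D) ⊔ LSp p := by
  rcases p with w | ψ
  · rw [inl_mem_SP] at hp
    obtain ⟨v, hv, hwv⟩ := hp
    have h1 : up L a ∉ LS (w.valuation L) := fun h => ha v hv (LS_of_map h3 hfix hwv h)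
    have h2 : up L D ∉ LS (w.valuation L) := fun h => hD v hv (LS_of_map h3 hfix hwv h)
    have h4 : up L a * up L D ∉ LS (w.valuation L) := fun h => haD v hv
      (LS_of_map h3 hfix hwv (by rwa [map_mul]))
    change μ ∈ NF (up L a) ⊔ NF (up L D) ⊔ LS (w.valuation L)
    rw [NF_sup_NF w h1 h2 h4]
    exact Subgroup.mem_top _
  · by_cases h : 0 < ψ (algebraMap k L a)
    · have h1 : NF (up L a) ⊔ LSp (Sum.inr ψ : Pl L) = ⊤ :=
        Even.sup_eq_top (a := up L a) (p := Sum.inr ψ) h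
      have h2 : NF (up L a) ⊔ LSp (Sum.inr ψ : Pl L) ≤
          NF (up L a) ⊔ NF (up L D) ⊔ LSp (Sum.inr ψ : Pl L) :=
        sup_le (le_sup_left.trans le_sup_left) le_sup_right
      exact h2 (by rw [h1]; exact Subgroup.mem_top _)
    · refine Subgroup.mem_sup_right ?_
      exact hμ ψ (lt_of_le_of_ne (not_lt.mp h) ((map_ne_zero ψ).mpr
        ((map_ne_zero (algebraMap k L)).mpr a.ne_zero)))

/-- The norm form as an element of the subgroup. -/
theorem inv_form {a x y n : L} (hn : n ≠ 0) (h : n = x ^ 2 - a * y ^ 2) :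
    n⁻¹ = (x / n) ^ 2 - a * (y / n) ^ 2 := by
  have e : (x / n) ^ 2 - a * (y / n) ^ 2 = (x ^ 2 - a * y ^ 2) / n ^ 2 := by ring
  rw [e, ← h]
  field_simp

/-- **F4**, with signs. -/
theorem F4s (h3 : Module.finrank k L = 3) {ρL : L ≃ₐ[k] L} (hρ : ρL ≠ 1) {a b b' : kˣ} {q : Lˣ}
    (hb : Aniso a b) (ν : Lˣ) (hν : ∀ w : L →+* ℝ, w (algebraMap k L a) < 0 → 0 < w (ν : L)) :
    ∃ (D : Fin 3 → k) (x y : Fin 3 → L) (e : kˣ),
      (∀ i, GoodD a b q (D i) ∧ GoodD a b' q (D i)) ∧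
      (∀ i, ∀ τ : k →+* ℝ, τ (D i) < 0 ↔ τ a < 0) ∧
      (ν : L) = algebraMap k L (e : k) * ∏ i, (x i ^ 2 - algebraMap k L (D i) * y i ^ 2) := by
  have hr3 : ∀ x, ρL (ρL (ρL x)) = x := E6I.rho3 h3 hρ
  have hfix : ∀ x, ρL x = x → ∃ t : k, algebraMap k L t = x := fun x hx => E6I.rho_fix h3 hρ hx
  have haS : ¬ IsSquare (a : k) := by
    rintro ⟨r, hr⟩
    have h1 := hb ⟨r, 1, 0, 0⟩ (by
      simp only [nrd]
      rw [hr]
      ring)
    have h2 := congrArg QuaternionAlgebra.imI h1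
    exact one_ne_zero (α := k) h2
  -- the set of places
  obtain ⟨v0, -, hv0⟩ := exists_nonsplit a haS ∅ Set.finite_empty
  choose below hbelow using fun w : HeightOneSpectrum (𝓞 L) => Sch.exists_below (F := k) w
  obtain ⟨R, hR⟩ : ∃ R : Set (HeightOneSpectrum (𝓞 L)), R = {w | Ram (up L a) q w} ∪
    {w | Ram (up L a) (q * up L b) w} ∪ {w | Ram (up L a) (q * up L b') w} := ⟨_, rfl⟩
  have hRf : R.Finite := by
    rw [hR]
    exact ((ram_finite _ _).union (ram_finite _ _)).union (ram_finite _ _)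
  have hRa : ∀ w ∈ R, up L a ∉ LS (w.valuation L) := by
    intro w hw
    rw [hR] at hw
    rcases hw with (hw | hw) | hw
    · exact ram_not_LS hw
    · exact ram_not_LS hw
    · exact ram_not_LS hw
  obtain ⟨S, hS⟩ : ∃ S : Set (HeightOneSpectrum (𝓞 k)), S = {v | Ram a b v} ∪ {v | Ram a b' v} ∪
    below '' R ∪ {v0} := ⟨_, rfl⟩
  have hSf : S.Finite := by
    rw [hS]
    exact (((ram_finite _ _).union (ram_finite _ _)).union (hRf.image _)).union
      (Set.finite_singleton _)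
  have hSa : ∀ v ∈ S, a ∉ LS (v.valuation k) := by
    intro v hv
    rw [hS] at hv
    rcases hv with ((hv | hv) | hv) | hv
    · exact ram_not_LS hv
    · exact ram_not_LS hv
    · obtain ⟨w, hw, rfl⟩ := hv
      exact fun h => hRa w hw (LS_map (hbelow w) h)
    · rw [Set.mem_singleton_iff] at hv
      rw [hv]
      exact hv0
  have hSv0 : v0 ∈ S := by
    rw [hS]
    exact Or.inr rfl
  have hSb : ∀ v, Ram a b v → v ∈ S := fun v hv => by
    rw [hS]
    exact Or.inl (Or.inl (Or.inl hv))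
  have hSb' : ∀ v, Ram a b' v → v ∈ S := fun v hv => by
    rw [hS]
    exact Or.inl (Or.inl (Or.inr hv))
  have hSR : ∀ w ∈ R, below w ∈ S := fun w hw => by
    rw [hS]
    exact Or.inl (Or.inr ⟨w, hw, rfl⟩)
  -- the criterion for good elements
  have hgood : ∀ D : kˣ, (∀ v ∈ S, D ∉ LS (v.valuation k)) → (∀ τ : k →+* ℝ, τ D < 0 ↔ τ a < 0) →
      GoodD a b q (D : k) ∧ GoodD a b' q (D : k) := by
    intro D hD hs
    have h1 : ∀ w ∈ R, up L D ∉ LS (w.valuation L) := fun w hw h =>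
      hD _ (hSR w hw) (LS_of_map hr3 hfix (hbelow w) h)
    have hq : ∀ w, Ram (up L a) q w → up L D ∉ LS (w.valuation L) := fun w hw =>
      h1 w (by rw [hR]; exact Or.inl (Or.inl hw))
    exact ⟨goodD_of (fun v hv => hD v (hSb v hv)) hq
      (fun w hw => h1 w (by rw [hR]; exact Or.inl (Or.inr hw))) (fun τ h => (hs τ).mpr h)
      (fun τ h => (hs τ).mp h),
      goodD_of (fun v hv => hD v (hSb' v hv)) hq
      (fun w hw => h1 w (by rw [hR]; exact Or.inr hw)) (fun τ h => (hs τ).mpr h)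
      (fun τ h => (hs τ).mp h)⟩
  -- the second field
  choose g hg1 hg2 using fun v : HeightOneSpectrum (𝓞 k) => exists_class v a
  obtain ⟨D2, hD2⟩ := weak_approx' hSf (Sum.elim g fun _ => a)
  have hD2S : ∀ v ∈ S, D2 ∉ LS (v.valuation k) ∧ a * D2 ∉ LS (v.valuation k) := by
    intro v hv
    have h1 : D2 / g v ∈ LS (v.valuation k) := hD2 (Sum.inl v) (inl_mem_SP.mpr hv)
    constructor
    · intro h
      apply hg1 v
      have h2 := mul_mem h (inv_mem h1)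
      rwa [inv_div, mul_div_cancel] at h2
    · intro h
      apply hg2 v
      have h2 := mul_mem h (inv_mem h1)
      rw [inv_div] at h2
      have e : a * D2 * (g v / D2) = g v * a := by
        rw [mul_assoc, mul_div_cancel, mul_comm]
      rwa [e] at h2
  have hD2r : ∀ τ : k →+* ℝ, τ D2 < 0 ↔ τ a < 0 := by
    intro τ
    have h1 : 0 < τ ((D2 / a : kˣ) : k) := hD2 (Sum.inr τ) inr_mem_SP
    rw [Units.val_div_eq_div_val, map_div₀] at h1
    have ha0 : τ a ≠ 0 := (map_ne_zero τ).mpr a.ne_zero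
    rcases div_pos_iff.mp h1 with ⟨h2, h4⟩ | ⟨h2, h4⟩
    · exact ⟨fun h => absurd h2 (not_lt.mpr h.le), fun h => absurd h4 (not_lt.mpr h.le)⟩
    · exact ⟨fun _ => h4, fun _ => h2⟩
  -- the target
  obtain ⟨y, hy⟩ : ∃ y : L, ρL y ≠ y := by
    by_contra hcon
    push Not at hcon
    exact hρ (AlgEquiv.ext hcon)
  have h01 : y ≠ ρL y := fun h => hy h.symm
  have h12 : ρL y ≠ ρL (ρL y) := fun h => hy (ρL.injective h.symm)
  have h20 : ρL (ρL y) ≠ y := fun h => by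
    have h1 := congrArg ρL h
    rw [hr3] at h1
    exact h01 h1
  have hc0 : y ^ 2 - algebraMap k L a ≠ 0 := by
    intro h
    have h1 : ρL y ^ 2 - algebraMap k L a = 0 := by
      have h2 := congrArg ρL h
      rwa [map_sub, map_pow, ρL.commutes, map_zero] at h2
    have h2 : (ρL y - y) * (ρL y + y) = 0 := by linear_combination h1 - h
    rcases mul_eq_zero.mp h2 with h4 | h4
    · exact hy (sub_eq_zero.mp h4)
    · have h5 : ρL y = -y := by linear_combination h4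
      have h6 := hr3 y
      rw [h5, map_neg, h5, neg_neg, h5] at h6
      have h7 : y = 0 := by
        have : (2 : L) * y = 0 := by linear_combination -h6
        rcases mul_eq_zero.mp this with h8 | h8
        · exact absurd h8 two_ne_zero
        · exact h8
      exact hy (by rw [h7, map_zero])
  obtain ⟨c, hc⟩ : ∃ c : Lˣ, (c : L) = y ^ 2 - algebraMap k L a := ⟨Units.mk0 _ hc0, rfl⟩
  have hdec : ∀ p ∈ SP (ov L S), c / ν ∈ NF (up L a) ⊔ NF (up L D2) ⊔ LSp p := by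
    intro p hp
    refine loc_dec hr3 hfix hSa (fun v hv => (hD2S v hv).1) (fun v hv => (hD2S v hv).2) hp _ ?_
    intro ψ hψ
    rw [Units.val_div_eq_div_val, map_div₀, hc, map_sub, map_pow]
    exact div_pos (by nlinarith [sq_nonneg (ψ y)]) (hν ψ hψ)
  have hTf : (SP (ov L S)).Finite := SP_finite (ov_finite hSf)
  -- closeness for the third field
  have h4a : (4 * algebraMap k L a : L) ≠ 0 :=
    mul_ne_zero (by norm_num) ((map_ne_zero _).mpr a.ne_zero)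
  choose δ1 hδ1 hnear using fun p : Pl L => LSp_of_near p (Units.mk0 _ h4a)
  have hδ : ∀ p : Pl L, ∃ δ : ℝ, 0 < δ ∧ (p ∈ SP (ov L S) → ∀ z : L,
      (∀ r ∈ SP (ov L S), plAbv r (z - (y ^ 2 - algebraMap k L a)) < δ) →
      plAbv p (iD y (ρL y) (ρL (ρL y)) z (ρL z) (ρL (ρL z)) - 4 * algebraMap k L a) <
        min (δ1 p) (plAbv p (4 * algebraMap k L a))) := by
    intro p
    by_cases hp : p ∈ SP (ov L S)
    · obtain ⟨δ, hδ, h1⟩ := exists_iD_delta (ρ := ρL) S y (a : k) p hp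
        (ε := min (δ1 p) (plAbv p (4 * algebraMap k L a)))
        (lt_min (hδ1 p) ((plAbv p).pos h4a))
      refine ⟨δ, hδ, fun _ z hz => ?_⟩
      have h2 := h1 z hz
      rwa [iD_val h01 h12 h20] at h2
    · exact ⟨1, one_pos, fun h => absurd h hp⟩
  choose δ2 hδ2 hiD using hδ
  obtain ⟨δ, hδ, hδle⟩ : ∃ δ : ℝ, 0 < δ ∧ ∀ p ∈ SP (ov L S), δ ≤ δ2 p := by
    have _hfin : Finite (SP (ov L S)) := hTf
    by_cases hne : Nonempty (SP (ov L S))
    · obtain ⟨p0, hp0⟩ := Finite.exists_min (fun p : SP (ov L S) => δ2 p)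
      exact ⟨δ2 p0, hδ2 _, fun p hp => hp0 ⟨p, hp⟩⟩
    · exact ⟨1, one_pos, fun p hp => absurd ⟨⟨p, hp⟩⟩ hne⟩
  obtain ⟨X, hX⟩ := glob_pt hTf hdec hδ
  obtain ⟨z, hz⟩ : ∃ z, z = f4 (ν : L) (up L a : Lˣ) (up L D2 : Lˣ) X := ⟨_, rfl⟩
  rw [← hz, hc] at hX
  have hzD : ∀ p ∈ SP (ov L S), plAbv p (iD y (ρL y) (ρL (ρL y)) z (ρL z) (ρL (ρL z)) -
      4 * algebraMap k L a) < min (δ1 p) (plAbv p (4 * algebraMap k L a)) := fun p hp =>
    hiD p hp z fun r hr => (hX r hr).trans_le (hδle p hp)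
  -- the coefficients
  obtain ⟨A, hA⟩ := hfix (iA y (ρL y) (ρL (ρL y)) z (ρL z) (ρL (ρL z))) (by
    have e : ρL (iA y (ρL y) (ρL (ρL y)) z (ρL z) (ρL (ρL z))) =
        iA (ρL y) (ρL (ρL y)) y (ρL z) (ρL (ρL z)) z := by
      simp only [iA, map_add, map_div₀, map_mul, map_sub, hr3]
    rw [e, iA_cyc])
  obtain ⟨B, hB⟩ := hfix (iB y (ρL y) (ρL (ρL y)) z (ρL z) (ρL (ρL z))) (by
    have e : ρL (iB y (ρL y) (ρL (ρL y)) z (ρL z) (ρL (ρL z))) =
        iB (ρL y) (ρL (ρL y)) y (ρL z) (ρL (ρL z)) z := by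
      simp only [iB, map_add, map_div₀, map_mul, map_sub, map_neg, hr3]
    rw [e, iB_cyc])
  obtain ⟨C, hC⟩ := hfix (iC y (ρL y) (ρL (ρL y)) z (ρL z) (ρL (ρL z))) (by
    have e : ρL (iC y (ρL y) (ρL (ρL y)) z (ρL z) (ρL (ρL z))) =
        iC (ρL y) (ρL (ρL y)) y (ρL z) (ρL (ρL z)) z := by
      simp only [iC, map_add, map_div₀, map_mul, map_sub, hr3]
    rw [e, iC_cyc])
  have hint := interp h01 h12 h20 z (ρL z) (ρL (ρL z))
  rw [← hA, ← hB, ← hC] at hint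
  obtain ⟨d, hd⟩ : ∃ d : k, d = B ^ 2 - 4 * A * C := ⟨_, rfl⟩
  have hdL : algebraMap k L d = iD y (ρL y) (ρL (ρL y)) z (ρL z) (ρL (ρL z)) := by
    rw [hd, iD, ← hA, ← hB, ← hC]
    simp only [map_sub, map_pow, map_mul, map_ofNat]
  rw [← hdL] at hzD
  obtain ⟨w0, hw0⟩ := exists_above (E := L) v0
  have hw0S : (Sum.inl w0 : Pl L) ∈ SP (ov L S) := inl_mem_SP.mpr ⟨v0, hSv0, hw0⟩
  have hd0 : d ≠ 0 := by
    rintro rfl
    have h1 := (hzD _ hw0S).trans_le (min_le_right _ _)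
    rw [map_zero, zero_sub, (plAbv _).map_neg] at h1
    exact absurd h1 (lt_irrefl _)
  obtain ⟨D3, hD3⟩ : ∃ D3 : kˣ, (D3 : k) = d := ⟨Units.mk0 d hd0, rfl⟩
  have hprod : ∀ p ∈ SP (ov L S), up L D3 * Units.mk0 _ h4a ∈ LSp p := by
    intro p hp
    refine hnear p _ ?_
    have h1 := (hzD p hp).trans_le (min_le_left _ _)
    change plAbv p (algebraMap k L (D3 : k) - 4 * algebraMap k L a) < δ1 p
    rw [hD3]
    exact h1
  have hD3S : ∀ v ∈ S, D3 ∉ LS (v.valuation k) := by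
    intro v hv h
    obtain ⟨w, hw⟩ := exists_above (E := L) v
    have h1 : up L D3 * Units.mk0 _ h4a ∈ LS (w.valuation L) :=
      hprod (Sum.inl w) (inl_mem_SP.mpr ⟨v, hv, hw⟩)
    have h2 : up L D3 ∈ LS (w.valuation L) := LS_map hw h
    have h4 : Units.mk0 _ h4a ∈ LS (w.valuation L) := by
      have h5 := mul_mem (inv_mem h2) h1
      rwa [inv_mul_cancel_left] at h5
    have h5 : up L a ∈ LS (w.valuation L) := by
      have h6 := mul_mem (inv_mem (sq_mem_LS (w := w.valuation L)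
        (Units.mk0 (2 : L) two_ne_zero))) h4
      have e : (Units.mk0 (2 : L) two_ne_zero ^ 2)⁻¹ * Units.mk0 _ h4a = up L a := by
        apply Units.ext
        rw [Units.val_mul, Units.val_inv_eq_inv_val, Units.val_pow_eq_pow_val, Units.val_mk0,
          Units.val_mk0]
        change _ = algebraMap k L a
        ring
      rwa [e] at h6
    exact hSa v hv (LS_of_map hr3 hfix hw h5)
  have hD3r : ∀ τ : k →+* ℝ, τ D3 < 0 ↔ τ a < 0 := by
    intro τ
    obtain ⟨ψ, rfl⟩ := E6I.exists_real_over h3 τ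
    have h1 : 0 < ψ ((up L D3 * Units.mk0 _ h4a : Lˣ) : L) := hprod (Sum.inr ψ) inr_mem_SP
    rw [Units.val_mul, Units.val_mk0, map_mul, map_mul, map_ofNat] at h1
    change 0 < ψ (algebraMap k L D3) * (4 * ψ (algebraMap k L a)) at h1
    change ψ (algebraMap k L D3) < 0 ↔ ψ (algebraMap k L a) < 0
    constructor
    · intro h
      by_contra hcon
      nlinarith
    · intro h
      by_contra hcon
      nlinarith
  have hg3 := hgood D3 hD3S hD3r
  have hA0 : A ≠ 0 := by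
    rintro rfl
    apply hD3S v0 hSv0
    refine Sq_le_LS _ (mem_Sq_iff.mpr ⟨B, ?_⟩)
    rw [hD3, hd]
    ring
  have h4A : (4 * A : k) ≠ 0 := mul_ne_zero (by norm_num) hA0
  have hzform : algebraMap k L (4 * A) * z =
      (2 * algebraMap k L A * y + algebraMap k L B) ^ 2 - algebraMap k L d * 1 ^ 2 := by
    rw [← hint, hd]
    simp only [map_mul, map_sub, map_pow, map_ofNat]
    ring
  have hz0 : z ≠ 0 := by
    intro h
    rw [h, mul_zero] at hzform
    have h1 : IsSquare ((up L D3 : Lˣ) : L) := by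
      refine ⟨2 * algebraMap k L A * y + algebraMap k L B, ?_⟩
      change algebraMap k L (D3 : k) = _
      rw [hD3]
      linear_combination hzform
    exact hD3S v0 hSv0 (LS_of_map hr3 hfix hw0 (Sq_le_LS _ (mem_Sq_iff.mpr h1)))
  obtain ⟨n1, hn1⟩ : ∃ n1, n1 = X 0 ^ 2 - algebraMap k L a * X 1 ^ 2 := ⟨_, rfl⟩
  obtain ⟨n2, hn2⟩ : ∃ n2, n2 = X 2 ^ 2 - algebraMap k L D2 * X 3 ^ 2 := ⟨_, rfl⟩
  have hzn : z = ν * n1 * n2 := by
    rw [hz, hn1, hn2]
    rfl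
  have hn10 : n1 ≠ 0 := by
    rintro rfl
    exact hz0 (by rw [hzn]; ring)
  have hn20 : n2 ≠ 0 := by
    rintro rfl
    exact hz0 (by rw [hzn]; ring)
  refine ⟨![(a : k), (D2 : k), (D3 : k)],
    ![X 0 / n1, X 2 / n2, 2 * algebraMap k L A * y + algebraMap k L B],
    ![X 1 / n1, X 3 / n2, 1], (Units.mk0 _ h4A)⁻¹, ?_, ?_, ?_⟩
  · intro i
    fin_cases i
    · exact hgood a hSa fun τ => Iff.rfl
    · exact hgood D2 (fun v hv => (hD2S v hv).1) hD2r
    · exact hg3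
  · intro i
    fin_cases i
    · exact fun τ => Iff.rfl
    · exact hD2r
    · exact hD3r
  · rw [Fin.prod_univ_three]
    change (ν : L) = algebraMap k L ((Units.mk0 _ h4A)⁻¹ : kˣ) *
      (((X 0 / n1) ^ 2 - algebraMap k L a * (X 1 / n1) ^ 2) *
        ((X 2 / n2) ^ 2 - algebraMap k L D2 * (X 3 / n2) ^ 2) *
        ((2 * algebraMap k L A * y + algebraMap k L B) ^ 2 - algebraMap k L D3 * 1 ^ 2))
    rw [← inv_form hn10 hn1, ← inv_form hn20 hn2, hD3, ← hzform, hzn,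
      Units.val_inv_eq_inv_val, Units.val_mk0, map_inv₀]
    have h5 : algebraMap k L (4 * A) ≠ 0 := (map_ne_zero _).mpr h4A
    field_simp

/-- **F4**: decomposition of a class. -/
theorem F4 (h3 : Module.finrank k L = 3) {ρL : L ≃ₐ[k] L} (hρ : ρL ≠ 1) {a b b' : kˣ} {q : Lˣ}
    (hb : Aniso a b) (_hb' : Aniso a b')
    (_hr : ∀ w : L →+* ℝ, w (algebraMap k L a) < 0 →
      w (algebraMap k L b) < 0 ∧ w (algebraMap k L b') < 0 ∧ 0 < w (q : L))
    (ν : Lˣ) (hν : ∀ w : L →+* ℝ, w (algebraMap k L a) < 0 → 0 < w (ν : L)) :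
    ∃ (D : Fin 3 → k) (x y : Fin 3 → L) (e : kˣ),
      (∀ i, GoodD a b q (D i) ∧ GoodD a b' q (D i)) ∧
      (ν : L) = algebraMap k L (e : k) * ∏ i, (x i ^ 2 - algebraMap k L (D i) * y i ^ 2) := by
  obtain ⟨D, x, y, e, h1, -, h2⟩ := F4s h3 hρ hb ν hν
  exact ⟨D, x, y, e, h1, h2⟩

end main

end Vale.Agent.P011.D4X
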