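import Vale.Agent.P011.MPQ.C2a

/-!
Pure quaternions with a prescribed square which is locally not a square at the ramified places.
-/

open NumberField IsDedekindDomain

namespace Vale.Agent.P011.D4X

open Vale.Agent.P011.Arith Vale.Agent.P011.MPQ

section field

variable {F : Type} [Field F]

/-- A split quaternion algebra has pure elements of every square. -/
theorem exists_pure_split (h2 : (2 : F) ≠ 0) (a b : Fˣ) (hb : b ∈ NF a) (e : F) :
    ∃ p q r : F, e = a * p ^ 2 + b * q ^ 2 - a * b * r ^ 2 := by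
  obtain ⟨x, y, h⟩ := hb
  have ha := a.ne_zero
  have hb := b.ne_zero
  refine ⟨(1 + e / a) / 2, -((e / a - 1) / 2 * a * y / b), (e / a - 1) / 2 * x / b, ?_⟩
  have e1 : (b : F) * (-((e / a - 1) / 2 * a * y / b)) ^ 2 -
      a * b * ((e / a - 1) / 2 * x / b) ^ 2 = -(a * ((e / a - 1) / 2) ^ 2) := by
    have e2 : (b : F) * (-((e / a - 1) / 2 * a * y / b)) ^ 2 -
      a * b * ((e / a - 1) / 2 * x / b) ^ 2 =
        -(a * ((e / a - 1) / 2) ^ 2) * ((x ^ 2 - a * y ^ 2) / b) := by
      field_simp
      ring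
    rw [e2, ← h, div_self hb, mul_one]
  have e3 : (a : F) * ((1 + e / a) / 2) ^ 2 - a * ((e / a - 1) / 2) ^ 2 = e := by
    field_simp
    ring
  linear_combination -e3 - e1

end field

variable {F : Type} [Field F] [NumberField F]

/-- Local-global principle: `e` is the square of a pure quaternion if it is not a local square at
the ramified places. -/
theorem exists_pure_ne (a b e : Fˣ)
    (hfin : ∀ v, Ram a b v → e ∉ LS (v.valuation F))
    (hreal : ∀ φ : F →+* ℝ, φ a < 0 → φ b < 0 → φ e < 0) :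
    ∃ p q r : F, (e : F) = a * p ^ 2 + b * q ^ 2 - a * b * r ^ 2 := by
  by_cases hbN : b ∈ NF a
  · exact exists_pure_split two_ne_zero a b hbN e
  have haS : ¬ IsSquare (a : F) := fun h => hbN (by
    rw [NF_eq_top (mem_Sq_iff.mpr h)]
    exact Subgroup.mem_top b)
  -- real places
  have hreal' : ∀ (R : Type) [Field R] (ι : F →+* R) (ψ : R →+* ℝ) (a' b' : Rˣ), ι a = a' →
      ι b = b' → (0 ≤ ψ (ι e)) → b' ∈ NF a' ⊔ LSR ψ := by
    intro R _ ι ψ a' b' ha' hb' he0
    by_cases hb : 0 < ψ b'
    · exact Subgroup.mem_sup_right (mem_LSR.mpr hb)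
    · have hb2 : ψ b' < 0 := lt_of_le_of_ne (not_lt.mp hb) ((map_ne_zero ψ).mpr b'.ne_zero)
      have ha2 : 0 < ψ a' := by
        by_contra ha
        have ha2 : ψ a' < 0 := lt_of_le_of_ne (not_lt.mp ha) ((map_ne_zero ψ).mpr a'.ne_zero)
        have h1 := hreal (ψ.comp ι) (by rw [RingHom.comp_apply, ha']; exact ha2)
          (by rw [RingHom.comp_apply, hb']; exact hb2)
        rw [RingHom.comp_apply] at h1
        linarith
      have h1 : b' / (-a') ∈ LSR ψ := by
        rw [mem_LSR, Units.val_div_eq_div_val, map_div₀, Units.val_neg, map_neg]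
        exact div_pos_of_neg_of_neg hb2 (by linarith)
      have h2 : b' = -a' * (b' / (-a')) := by
        rw [mul_div_cancel]
      rw [h2]
      exact Subgroup.mul_mem_sup (Sch.neg_mem_NF _) h1
  -- `e` is not a square
  have hensq : ¬ IsSquare (e : F) := by
    intro hsq
    refine hbN (hasse_norm a b ?_)
    rintro (v | φ)
    · change b ∈ NF a ⊔ LS (v.valuation F)
      by_contra hv
      exact hfin v hv (Sq_le_LS _ (mem_Sq_iff.mpr hsq))
    · refine hreal' F (RingHom.id F) φ a b rfl rfl ?_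
      obtain ⟨t, ht⟩ := hsq
      rw [RingHom.id_apply, ht, map_mul]
      exact mul_self_nonneg _
  obtain ⟨E, _, _, _, hE, θ, hθ⟩ := exists_quad e hensq
  have hθ' : ∀ x : F, algebraMap F E x ≠ θ := by
    rintro r rfl
    apply hensq
    refine ⟨r, (algebraMap F E).injective ?_⟩
    rw [← hθ, map_mul, pow_two]
  set ι : Fˣ →* Eˣ := Units.map (algebraMap F E : F →* E) with hι
  have hιv : ∀ u : Fˣ, ((ι u : Eˣ) : E) = algebraMap F E u := fun _ => rfl
  have key : ι b ∈ NF (ι a) := by
    refine hasse_norm (ι a) (ι b) ?_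
    rintro (w | ψ)
    · change ι b ∈ NF (ι a) ⊔ LS (w.valuation E)
      obtain ⟨v, hv⟩ := Sch.exists_below (F := F) w
      by_cases hvR : Ram a b v
      · rcases Sch.local_split v a b e (hfin v hvR) with h1 | ⟨y, n, l, hn, hl, h1⟩
        · exact Sch.sup_map hv h1
        · have h2 : ι (b * n * l) ∈ NF (ι a) := by
            refine ⟨θ, algebraMap F E y, ?_⟩
            rw [hιv, hθ, hιv]
            have h3 : ((b * n * l : Fˣ) : F) = (e : F) - a * y ^ 2 := by
              rw [h1]; push_cast; ring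
            rw [h3]
            simp
          have h3 : ι b = ι (b * n * l) * (ι n)⁻¹ * (ι l)⁻¹ := by
            rw [map_mul, map_mul, mul_right_comm (ι b * ι n) (ι l) (ι n)⁻¹,
              mul_inv_cancel_right, mul_inv_cancel_right]
          rw [h3]
          exact mul_mem (mul_mem (Subgroup.mem_sup_left h2)
            (inv_mem (Subgroup.mem_sup_left (Sch.NF_map hn))))
            (inv_mem (Subgroup.mem_sup_right (LS_map hv hl)))
      · exact Sch.sup_map hv (not_not.mp hvR)
    · refine hreal' E (algebraMap F E) ψ (ι a) (ι b) rfl rfl ?_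
      rw [← hθ, map_pow]
      positivity
  obtain ⟨X, Y, hXY⟩ := key
  obtain ⟨x1, x2, y1, y2, h1, h2⟩ :=
    Sch.descend (a := (a : F)) (b := (b : F)) hθ hE hθ' hXY
  have hn : x2 ^ 2 - a * y2 ^ 2 ≠ 0 := by
    intro h0
    by_cases hy : y2 = 0
    · have hx : x2 = 0 := by
        rw [hy] at h0
        have h3 : x2 ^ 2 = 0 := by linear_combination h0
        exact pow_eq_zero_iff (two_ne_zero) |>.mp h3
      apply hbN
      exact ⟨x1, y1, by rw [h1, hx, hy]; ring⟩
    · apply haS
      refine ⟨x2 / y2, ?_⟩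
      field_simp
      linear_combination -h0
  refine ⟨(y1 * x2 - x1 * y2) / (x2 ^ 2 - a * y2 ^ 2), x2 / (x2 ^ 2 - a * y2 ^ 2),
    y2 / (x2 ^ 2 - a * y2 ^ 2), ?_⟩
  field_simp
  rw [h1]
  linear_combination (-(x1 * x2) + a * y1 * y2) * h2

end Vale.Agent.P011.D4X
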